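import Vale.Agent.P092LQ.Chn
import Vale.Agent.P092GP.Flag
import Vale.Agent.P092TS.Nd

/-!
P092, project LQ (helper45): closed forms.
-/

set_option autoImplicit false
set_option linter.all false

namespace Vale.Agent.P092LQ

open Vale.Agent.P092GK Vale.Agent.P092GP Vale.Agent.P092GP.LD Vale.Agent.P092

variable {k G : Type} [NontriviallyNormedField k] [Group G] [TopologicalSpace G] {L : LD k G}

theorem ad_lp (H : L.LP) : Ad L L.fl := ⟨H.fl, rfl, rfl, rfl⟩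

/-- the group form of the Howe–Moore property -/
theorem hmg_lp (H : L.LP) (ht : L.Gp = ⊤) : H15.HMG G :=
  let ⟨_, _, _, hp⟩ := H.pan
  (ad_lp H).hmg H ht hp

theorem facS_ls (H : L.LS) (ht : L.Gp = ⊤) : PA.FacS (H259.PQ G) :=
  have := H.lp.top
  P092TS.facS_ls H H.lp.cemb ht (hmg_lp H.lp ht)

/-- **The factors.** -/
theorem qf_ls (H : L.LS) (ht : L.Gp = ⊤) : QC.QF G L.R.r :=
  let ⟨_, _, _, hp⟩ := H.lp.pan
  (ad_lp H.lp).qf' hp H ht H.lp.ok.root.pos fun _ => facS_ls H ht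

theorem nd_ls (H : L.LS) (ht : L.Gp = ⊤) : H213.Nd.ND G :=
  have := H.lp.top
  have := H.lp.prop
  P092TS.nd H.lp.ok H.lp.cemb ht (qf_ls H ht)

theorem ov_ls (H : L.LS) (hf : L.Gp.FiniteIndex) : VR.Ov L.Gp.subtype L.R.r :=
  ov_of H hf fun _ a b _ => qf_ls a b

/-- **Overgroups of finite index.** -/
theorem bpl_ls (H : L.LS) (hf : L.Gp.FiniteIndex) : H259.Mx.Bpl G :=
  bpl_of H hf fun _ a b _ => ⟨qf_ls a b, nd_ls a b⟩

end Vale.Agent.P092LQ
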