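import Vale.Agent.P092LQ.Qf
import Vale.Agent.P092SC.Src

/-!
P092, project LQ (helper45): chains of commuting ping-pong families in a flag package.
-/

set_option autoImplicit false
set_option linter.all false

open Filter Topology

namespace Vale.Agent.P092LQ

open Vale.Agent.P092GK Vale.Agent.P092GP Vale.Agent.P092GP.LD Vale.Agent.P092

variable {k G : Type} [NontriviallyNormedField k] [Group G] [TopologicalSpace G]

theorem chn [IsTopologicalGroup G] [T2Space G] [ProperSpace k] [LocallyCompactSpace G]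
    [SecondCountableTopology G] {r : ℕ} {F : FlD k G r} {s : Fin r → G} {N : ℕ} {τ : ℕ → Fin r}
    {w : ℕ → G} (h : Fl F) (hp : Pan F s N τ w) : H264.Chn G r := by
  letI : MeasurableSpace G := borel G
  haveI : BorelSpace G := ⟨rfl⟩
  obtain ⟨R, c, -, hc, -, h1, -⟩ := P092SC.src_pp h hp
  refine ⟨⟨fun j n => F.a (Pi.single j (n : ℤ)), fun j => {g | F.len g ≤ R} ∩ F.L₁ j,
    fun j => (h.cpt_len R).inter_right (h.isClosed_L _), fun i j _ n m => h.a_comm _ (h.a_mem _),
    fun i j e n x hx => h.a_comm_L hx.2 fun l hl => Pi.single_eq_of_ne (fun e' => hl ?_) _,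
    fun j p => ?_⟩, fun hn => ?_⟩
  · exact Finset.mem_erase.2 ⟨e' ▸ e.ne, Finset.mem_univ _⟩
  · have h2 : ∀ᶠ n : ℕ in atTop, (p : ℝ) ≤ Real.exp (c * n) :=
      (Real.tendsto_exp_atTop.comp (tendsto_natCast_atTop_atTop.const_mul_atTop hc)).eventually_ge_atTop _
    obtain ⟨N₀, hN⟩ := eventually_atTop.1 ((h1 j).and h2)
    refine ⟨N₀, fun n hn => ?_⟩
    obtain ⟨⟨q, κ, κ', a, b, Bm, Bp, c1, c2, c3, c4, c5⟩, d⟩ := hN n hn
    have e : p ≤ q := by exact_mod_cast d.trans a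
    exact ⟨fun l => κ (l.castLE e), fun l => κ' (l.castLE e), fun l => Bm (l.castLE e),
      fun l => Bp (l.castLE e), fun l => ⟨(b _).1, (b _).2.2.1⟩, fun l => ⟨(b _).2.1, (b _).2.2.2⟩,
      fun l => c1 _, fun l => c2 _, fun l l' f => c3 _ _ ((Fin.castLE_injective e).ne f),
      fun l l' f => c4 _ _ ((Fin.castLE_injective e).ne f), fun l => c5 _⟩
  · show Tendsto (fun n : ℕ => F.a (Pi.single ⟨0, hn⟩ (n : ℤ))) atTop (cocompact G)
    simp only [h.a_single, zpow_natCast]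
    exact P092GH.pow_cocompact h (h.bZ _) (P092GH.ℓ_b_ne h _)

/-- **The factors**, from adapted flag and panel packages. -/
theorem Ad.qf' {L : LD k G} {F : FlD k G L.R.r} {s : Fin L.R.r → G} {N : ℕ} {τ : ℕ → Fin L.R.r}
    {w : ℕ → G} (A : Ad L F) (hp : Pan F s N τ w) (H : L.LS) (ht : L.Gp = ⊤) (hr : 0 < L.R.r)
    (hf : H15.HMG G → PA.FacS (H259.PQ G)) : QC.QF G L.R.r :=
  have := H.lp.top
  have := H.lp.t2
  have := H.lp.prop
  have := H.lp.lc
  have := H.lp.sc
  have hm := A.hmg H.lp ht hp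
  A.qf H ht hr hm (chn A.fl hp) (hf hm)

end Vale.Agent.P092LQ
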