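import Vale.Agent.P092GK.Gauge

/-!
P092, project LQ (helper45): coarse circumcentres in a flag package. Every bounded subgroup is
conjugate into one fixed compact set.
-/

set_option autoImplicit false
set_option linter.all false

open Matrix Filter Topology

namespace Vale.Agent.P092LQ

open Vale.Agent.P092GK Vale.Agent.P092GK.FlD

theorem sq_aux {X s P Q D e : ℝ} (hX : 0 ≤ X) (hP : 0 ≤ P) (hQ : 0 ≤ Q) (hD : 0 ≤ D) (he : 0 < e)
    (h1 : X + s ≤ P + D) (h2 : X - s ≤ Q + D) :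
    2 * X ^ 2 + s ^ 2 ≤ (1 + e) * (P ^ 2 + Q ^ 2) + 2 * (1 + 1 / e) * D ^ 2 := by
  have a1 : ∀ P : ℝ, (P + D) ^ 2 ≤ (1 + e) * P ^ 2 + (1 + 1 / e) * D ^ 2 := fun P => by
    have : 0 ≤ (e * P - D) ^ 2 / e := by positivity
    have e2 : (e * P - D) ^ 2 / e = e * P ^ 2 - 2 * P * D + 1 / e * D ^ 2 := by field_simp; ring
    nlinarith
  have a2 : ∀ {s P Q : ℝ}, 0 ≤ s → 0 ≤ Q → X + s ≤ P → X - s ≤ Q → 2 * X ^ 2 + s ^ 2 ≤ P ^ 2 + Q ^ 2 :=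
    fun {s P Q} hs hQ h1 h2 => by
      have b1 : (X + s) ^ 2 ≤ P ^ 2 := pow_le_pow_left₀ (by linarith) h1 2
      rcases le_total s X with h | h
      · have b2 : (X - s) ^ 2 ≤ Q ^ 2 := pow_le_pow_left₀ (by linarith) h2 2
        nlinarith
      · nlinarith [sq_nonneg Q, mul_nonneg hX (sub_nonneg.2 h)]
  rcases le_total 0 s with h | h
  · linarith [a2 h (add_nonneg hQ hD) h1 h2, a1 P, a1 Q]
  · have := a2 (s := -s) (neg_nonneg.2 h) (add_nonneg hP hD) (P := Q + D) (by linarith) (by linarith)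
    rw [neg_sq] at this
    linarith [a1 P, a1 Q]

variable {k : Type} [NontriviallyNormedField k] {G : Type} [Group G] {r : ℕ}

/-- the translates of the big cell by the normaliser of `Z` cover the group -/
def Cov (F : FlD k G r) : Prop :=
  ∀ g, ∃ n : G, (∀ z ∈ F.Z, n⁻¹ * z * n ∈ F.Z) ∧ n⁻¹ * g ∈ F.Ω

variable {F : FlD k G r} [TopologicalSpace G] (h : Fl F)
include h

theorem len_zpow (g : G) (n : ℤ) : F.len (g ^ n) ≤ |(n : ℝ)| * F.len g := by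
  obtain ⟨m, rfl | rfl⟩ := Int.eq_nat_or_neg n
  · rw [zpow_natCast, Int.cast_natCast, Nat.abs_cast]; exact h.len_pow g m
  · rw [_root_.zpow_neg, len_inv, zpow_natCast, Int.cast_neg, Int.cast_natCast, abs_neg, Nat.abs_cast]
    exact h.len_pow g m

theorem len_prod (l : List G) : F.len l.prod ≤ (l.map F.len).sum := by
  induction l with
  | nil => simp [h.len_one]
  | cons a l ih =>
    rw [List.prod_cons, List.map_cons, List.sum_cons]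
    linarith [h.len_mul a l.prod]

theorem len_a (t : Fin r → ℤ) {S : ℝ} (hS : ∀ i, |(t i : ℝ)| ≤ S) :
    F.len (F.a t) ≤ S * ∑ i, F.len (F.b i) := by
  refine (len_prod h _).trans ?_
  rw [List.map_ofFn, List.sum_ofFn, Finset.mul_sum]
  exact Finset.sum_le_sum fun i _ => (len_zpow h _ _).trans
    (mul_le_mul_of_nonneg_right (hS i) (len_nonneg _))

theorem l_le_lam : ∃ D : ℝ, 1 ≤ D ∧ ∀ g ∈ F.Ω, ∀ j, F.ω (F.ℓ g) j ≤ F.lam g j + D := by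
  obtain ⟨D, hD, hD'⟩ := cpt_up (isCompact_singleton (x := ()))
    (fun j _ => Real.log (‖F.φ j‖ * ‖F.v j‖)) fun _ => continuousOn_const
  refine ⟨D, hD, fun g hg j => ?_⟩
  have h2 : ‖F.Δ j g‖ ≤ (‖F.φ j‖ * ‖F.v j‖) * ‖F.V j g‖ :=
    ((F.φ j).le_opNorm _).trans ((mul_le_mul_of_nonneg_left ((F.V j g).le_opNorm _)
      (norm_nonneg _)).trans (le_of_eq (by ring)))
  have hΔ := norm_pos_iff.2 (hg j)
  have hV := norm_pos_iff.2 (h.V_ne j g)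
  have h3 : 0 < ‖F.φ j‖ * ‖F.v j‖ := pos_of_mul_pos_left (hΔ.trans_le h2) hV.le
  have h6 := Real.log_le_log hΔ h2
  rw [Real.log_mul h3.ne' hV.ne'] at h6
  rw [h.ω_ℓ, FlD.lam]
  linarith [hD' j () rfl]

variable [IsTopologicalGroup G]

theorem len_z : ∃ E : ℝ, 1 ≤ E ∧ ∀ z ∈ F.Z, F.len z ≤ E * (1 + ‖F.ω (F.ℓ z)‖) := by
  obtain ⟨R, hR, hR'⟩ := h.len_cpt (h.zprop F.β)
  obtain ⟨C, hC, hC'⟩ := F.co_bound
  have hA : 0 ≤ ∑ i, F.len (F.b i) := Finset.sum_nonneg fun i _ => len_nonneg _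
  have hβ := h.β_pos
  set A := ∑ i, F.len (F.b i) with hAe
  have hCA : 0 ≤ C / F.β * A := by positivity
  refine ⟨R + A + C / F.β * A, by linarith, fun z hz => ?_⟩
  have h1 := hR' _ (h.z_dec hz)
  have h0 := norm_nonneg (F.ω (F.ℓ z))
  have h2 : F.len (F.a fun i => ⌊F.ℓ z i / F.β⌋) ≤ (C / F.β * ‖F.ω (F.ℓ z)‖ + 1) * A := by
    refine len_a h _ fun i => ?_
    have h3 : |F.ℓ z i| ≤ C * ‖F.ω (F.ℓ z)‖ := by
      have := hC' (F.ω (F.ℓ z))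
      rw [h.co_ω] at this
      exact (norm_le_pi_norm (F.ℓ z) i).trans this
    have h4 : |F.ℓ z i / F.β| ≤ C / F.β * ‖F.ω (F.ℓ z)‖ := by
      rw [abs_div, abs_of_pos hβ, div_mul_eq_mul_div]
      exact div_le_div_of_nonneg_right h3 hβ.le
    obtain ⟨a1, a2⟩ := abs_le.1 h4
    rw [abs_le]
    constructor <;> linarith [Int.floor_le (F.ℓ z i / F.β), Int.lt_floor_add_one (F.ℓ z i / F.β)]
  have h3 := h.len_mul (F.a fun i => ⌊F.ℓ z i / F.β⌋) ((F.a fun i => ⌊F.ℓ z i / F.β⌋)⁻¹ * z)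
  rw [mul_inv_cancel_left] at h3
  nlinarith [mul_nonneg hA h0, mul_nonneg (zero_le_one.trans hR) h0]

theorem cov_cpt (hc : Cov F) {K : Set G} (hK : IsCompact K) : ∃ C : ℝ, ∀ x ∈ K, ∃ n : G,
    (∀ z ∈ F.Z, n⁻¹ * z * n ∈ F.Z) ∧ n⁻¹ * x ∈ F.Ω ∧ F.len n ≤ C ∧ ‖F.ω (F.ℓ (n⁻¹ * x))‖ ≤ C := by
  refine hK.induction_on (p := fun K => ∃ C : ℝ, ∀ x ∈ K, ∃ n : G,
    (∀ z ∈ F.Z, n⁻¹ * z * n ∈ F.Z) ∧ n⁻¹ * x ∈ F.Ω ∧ F.len n ≤ C ∧ ‖F.ω (F.ℓ (n⁻¹ * x))‖ ≤ C)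
    ⟨0, fun x hx => hx.elim⟩ (fun s t hst ⟨C, hC⟩ => ⟨C, fun x hx => hC x (hst hx)⟩) ?_ ?_
  · rintro s t ⟨C, hC⟩ ⟨D, hD⟩
    refine ⟨max C D, fun x hx => ?_⟩
    rcases hx with hx | hx
    · obtain ⟨n, a, b, c, d⟩ := hC x hx
      exact ⟨n, a, b, c.trans (le_max_left _ _), d.trans (le_max_left _ _)⟩
    · obtain ⟨n, a, b, c, d⟩ := hD x hx
      exact ⟨n, a, b, c.trans (le_max_right _ _), d.trans (le_max_right _ _)⟩
  · intro x _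
    obtain ⟨n, a, b⟩ := hc x
    have h1 : ContinuousAt (fun y => n⁻¹ * y) x := by fun_prop
    have h2 : ContinuousAt (fun y => ‖F.ω (F.ℓ (n⁻¹ * y))‖) x :=
      (cont_ω.continuousAt.comp (ContinuousAt.comp (f := fun y => n⁻¹ * y)
        (h.contOn_ℓ.continuousAt (h.isOpen_Ω.mem_nhds b)) h1)).norm
    refine ⟨_, mem_nhdsWithin_of_mem_nhds (inter_mem (h1.preimage_mem_nhds (h.isOpen_Ω.mem_nhds b))
      (h2.eventually (gt_mem_nhds (lt_add_one _)))), max (F.len n) (‖F.ω (F.ℓ (n⁻¹ * x))‖ + 1),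
      fun y hy => ⟨n, a, hy.1, le_max_left _ _, (le_of_lt hy.2).trans (le_max_right _ _)⟩⟩

variable [T2Space G] [ProperSpace k]

/-- the sizes are coarsely convex along the torus, with a common Weyl chamber -/
theorem cn (hc : Cov F) : ∃ C : ℝ, 1 ≤ C ∧ ∀ g, ∃ n : G, (∀ z ∈ F.Z, n⁻¹ * z * n ∈ F.Z) ∧
    F.len n ≤ C ∧ ∀ z ∈ F.Z, ∀ j, F.lam g j + F.ω (F.ℓ (n⁻¹ * z * n)) j ≤ F.lam (z * g) j + C := by
  obtain ⟨K, hK, hg⟩ := h.kak
  obtain ⟨C, hC⟩ := cov_cpt h hc hK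
  obtain ⟨R, hR, hR'⟩ := h.len_cpt hK
  obtain ⟨D, hD, hD'⟩ := l_le_lam h
  obtain ⟨B, hB, hB'⟩ := h.lam_dom
  refine ⟨2 * |C| + 3 * R + D + B, by linarith [abs_nonneg C], fun g => ?_⟩
  obtain ⟨x, hx, t, ht, y, hy, rfl⟩ := hg g
  obtain ⟨n, a, b, c, d⟩ := hC x hx
  refine ⟨n, a, by linarith [le_abs_self C, abs_nonneg C], fun z hz j => ?_⟩
  have m1 : n⁻¹ * x * F.a t ∈ F.Ω := fun i => by
    rw [h.Δ_zr (h.a_mem t)]; exact mul_ne_zero (b i) (h.Δ_ne (h.a_mem t) i)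
  have m2 : n⁻¹ * z * n * (n⁻¹ * x * F.a t) ∈ F.Ω := fun i => by
    rw [h.Δ_zl (a z hz)]; exact mul_ne_zero (h.Δ_ne (a z hz) i) (m1 i)
  have h1 := hD' _ m2 j
  rw [h.ℓ_zl (a z hz) m1, h.ℓ_zr (h.a_mem t) b, ω_add, ω_add, Pi.add_apply, Pi.add_apply,
    show n⁻¹ * z * n * (n⁻¹ * x * F.a t) = n⁻¹ * (z * (x * F.a t * y)) * y⁻¹ by group] at h1
  have h2 := (abs_le.1 (h.lam_lip n⁻¹ (z * (x * F.a t * y)) y⁻¹ j)).2
  have h3 := (abs_le.1 (h.lam_lip x (F.a t) y j)).2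
  have h4 := (abs_le.1 (hB' _ (h.a_dom ht) j)).2
  have h5 := (abs_le.1 ((norm_le_pi_norm (F.ω (F.ℓ (n⁻¹ * x))) j).trans d)).1
  rw [len_inv, len_inv] at h2
  linarith [hR' x hx, hR' y hy, le_abs_self C]

theorem lam_low : ∃ c : ℝ, 0 ≤ c ∧ ∀ g j, 0 ≤ F.lam g j + c := by
  obtain ⟨C, hC, hC'⟩ := h.κ_low
  refine ⟨‖F.ω fun _ => -C‖, norm_nonneg _, fun g j => ?_⟩
  have h1 := h.ω_mono (x := fun _ => -C) (y := F.κ g) (fun i => hC' g i) j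
  rw [h.ω_κ] at h1
  linarith [(abs_le.1 (norm_le_pi_norm (F.ω fun _ => -C) j)).1]

/-- two near-centres are close -/
theorem step (hc : Cov F) {c : ℝ} (hc0 : ∀ g j, 0 ≤ F.lam g j + c) : ∃ M D : ℝ, 0 ≤ M ∧ 0 ≤ D ∧
    ∀ (W : Subgroup G) (x z : G) (N : ℝ), (∀ w ∈ W, ∑ j, (F.lam (x⁻¹ * w * z) j + c) ^ 2 ≤ N) →
      (∀ m, ∃ w ∈ W, N - 1 < ∑ j, (F.lam (m⁻¹ * w * z) j + c) ^ 2) → ∀ e : ℝ, 0 < e → ∀ w ∈ W,
        ∃ S : ℝ, 0 ≤ S ∧ S ^ 2 ≤ 2 + 2 * e * N + D * (1 + 1 / e) ∧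
          F.len (x⁻¹ * w * x) ≤ M * (1 + S) := by
  obtain ⟨K, hK, hg⟩ := h.kak
  obtain ⟨R, hR, hR'⟩ := h.len_cpt hK
  obtain ⟨C, hC, hC'⟩ := cn h hc
  obtain ⟨E, hE, hE'⟩ := len_z h
  have hA : 0 ≤ ∑ i, F.len (F.b i) := Finset.sum_nonneg fun i _ => len_nonneg _
  set A := ∑ i, F.len (F.b i) with hAe
  refine ⟨2 * R + A + 2 * E + 4 * C, 2 * r * (C + R + A) ^ 2, by linarith, by positivity,
    fun W x z N hN hN' e he w₀ hw₀ => ?_⟩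
  obtain ⟨p, hp, t, -, q, hq, ht⟩ := hg (x⁻¹ * w₀ * x)
  let s : Fin r → ℤ := fun i => t i / 2
  let d : Fin r → ℤ := fun i => t i % 2
  have e1 : F.a t = F.a s * F.a s * F.a d := by
    rw [← h.a_add, ← h.a_add]; congr 1; funext i
    show t i = t i / 2 + t i / 2 + t i % 2
    omega
  have hd : F.len (F.a d) ≤ A := by
    have := len_a h d (S := 1) fun i => by
      have : d i = 0 ∨ d i = 1 := by simp only [d]; omega
      rcases this with e | e <;> rw [e] <;> simp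
    rwa [one_mul] at this
  obtain ⟨w, hw, hq'⟩ := hN' (x * p * F.a s)
  set g := (x * p * F.a s)⁻¹ * w * z with hgd
  obtain ⟨n, a, b, hn⟩ := hC' g
  have hs := h.a_mem s
  set σ := F.ω (F.ℓ (n⁻¹ * F.a s * n)) with hσ
  have e2 : F.a s * g = p⁻¹ * (x⁻¹ * w * z) * 1 := by rw [hgd]; group
  have e3 : (F.a s)⁻¹ * g = F.a d * q * (x⁻¹ * (w₀⁻¹ * w) * z) * 1 := by
    have : w₀ = x * (p * (F.a s * F.a s * F.a d) * q) * x⁻¹ := by rw [← e1, ← ht]; group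
    rw [hgd, this]; group
  have key : ∀ j, 2 * (F.lam g j + c) ^ 2 + σ j ^ 2 ≤ (1 + e) * ((F.lam (x⁻¹ * w * z) j + c) ^ 2 +
      (F.lam (x⁻¹ * (w₀⁻¹ * w) * z) j + c) ^ 2) + 2 * (1 + 1 / e) * (C + R + A) ^ 2 := fun j => by
    refine sq_aux (hc0 _ _) (hc0 _ _) (hc0 _ _) (by linarith) he ?_ ?_
    · have h1 := hn _ hs j
      have h2 := (abs_le.1 (h.lam_lip p⁻¹ (x⁻¹ * w * z) 1 j)).2
      rw [← e2, len_inv, h.len_one] at h2
      linarith [hR' p hp]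
    · have h1 := hn _ (F.Z.inv_mem hs) j
      rw [show n⁻¹ * (F.a s)⁻¹ * n = (n⁻¹ * F.a s * n)⁻¹ by group, h.ℓ_inv (a _ hs), ω_neg,
        Pi.neg_apply] at h1
      have h2 := (abs_le.1 (h.lam_lip (F.a d * q) (x⁻¹ * (w₀⁻¹ * w) * z) 1 j)).2
      rw [← e3, h.len_one] at h2
      linarith [hR' q hq, h.len_mul (F.a d) q]
  have k2 := Finset.sum_le_sum fun j (_ : j ∈ Finset.univ) => key j
  rw [Finset.sum_add_distrib, Finset.sum_add_distrib, ← Finset.mul_sum, ← Finset.mul_sum,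
    Finset.sum_add_distrib, Finset.sum_const, Finset.card_univ, Fintype.card_fin, nsmul_eq_mul] at k2
  have k3 := hN w hw
  have k4 := hN _ (W.mul_mem (W.inv_mem hw₀) hw)
  have k5 : ‖σ‖ ^ 2 ≤ ∑ j, σ j ^ 2 := by
    have h0 : 0 ≤ ∑ j, σ j ^ 2 := Finset.sum_nonneg fun j _ => sq_nonneg _
    rw [← Real.le_sqrt (norm_nonneg _) h0, pi_norm_le_iff_of_nonneg (Real.sqrt_nonneg _)]
    exact fun j => Real.abs_le_sqrt
      (Finset.single_le_sum (f := fun j => σ j ^ 2) (fun j _ => sq_nonneg _) (Finset.mem_univ j))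
  refine ⟨‖σ‖, norm_nonneg _, ?_, ?_⟩
  · have k6 := mul_le_mul_of_nonneg_left (add_le_add k3 k4) (by linarith : 0 ≤ 1 + e)
    nlinarith
  · have h1 := hE' _ (a _ hs)
    have h2 : F.len (F.a s) ≤ F.len n + F.len (n⁻¹ * F.a s * n) + F.len n := by
      have h3 := h.len_mul (n * (n⁻¹ * F.a s * n)) n⁻¹
      have h4 := h.len_mul n (n⁻¹ * F.a s * n)
      rw [show n * (n⁻¹ * F.a s * n) * n⁻¹ = F.a s by group, len_inv] at h3
      linarith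
    have h3 := h.len_mul (p * F.a t) q
    have h4 := h.len_mul p (F.a t)
    have h5 := h.len_mul (F.a s * F.a s) (F.a d)
    have h6 := h.len_mul (F.a s) (F.a s)
    rw [← e1] at h5
    rw [← ht] at h3
    have h7 : 0 ≤ (2 * R + A + 4 * C) * ‖σ‖ := by positivity
    nlinarith [hR' p hp, hR' q hq]

/-- **Coarse circumcentre.** -/
theorem conj_len (hc : Cov F) : ∃ R : ℝ, ∀ W : Subgroup G, (∃ B, ∀ w ∈ W, F.len w ≤ B) →
    ∃ x, ∀ w ∈ W, F.len (x⁻¹ * w * x) ≤ R := by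
  obtain ⟨c, hc0, hc1⟩ := lam_low h
  obtain ⟨M, D, hM, hD, hs⟩ := step h hc hc1
  have hq : ∀ g B, F.len g ≤ B → ∑ j, (F.lam g j + c) ^ 2 ≤ r * (B + c) ^ 2 := fun g B hB => by
    have := Finset.sum_le_sum fun j (_ : j ∈ Finset.univ) =>
      pow_le_pow_left₀ (hc1 g j) (add_le_add_left ((lam_le_len g j).trans hB) c) 2
    rwa [Finset.sum_const, Finset.card_univ, Fintype.card_fin, nsmul_eq_mul] at this
  set M' : ℝ := 2 * r * (M + c) ^ 2 with hM'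
  have hM0 : 0 ≤ M' := by positivity
  set e : ℝ := 1 / (4 * (M' + 1)) with he
  have he0 : 0 < e := by positivity
  have he1 : M' * (2 * e) ≤ 1 / 2 := by
    rw [he, show M' * (2 * (1 / (4 * (M' + 1)))) = M' / (2 * (M' + 1)) by field_simp; ring,
      div_le_div_iff₀ (by positivity) (by positivity)]
    linarith
  set T : ℝ := 3 + D * (1 + 1 / e) with hT
  have hT0 : 0 ≤ T := by positivity
  refine ⟨M * (T + 2 * e * (2 * (M' * T) + 2) + 1), fun W ⟨B, hB⟩ => ?_⟩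
  let 𝒮 : Set ℝ := {N | ∃ x z : G, ∀ w ∈ W, ∑ j, (F.lam (x⁻¹ * w * z) j + c) ^ 2 ≤ N}
  have hne : 𝒮.Nonempty := ⟨_, 1, 1, fun w hw => hq _ B (by simpa using hB w hw)⟩
  have h0 : ∀ N ∈ 𝒮, 0 ≤ N := fun N ⟨x, z, hN⟩ =>
    (Finset.sum_nonneg fun j _ => sq_nonneg _).trans (hN 1 W.one_mem)
  obtain ⟨N, ⟨x, z, hN⟩, hlt⟩ := exists_lt_of_csInf_lt hne (lt_add_one (sInf 𝒮))
  have hmin : ∀ N' ∈ 𝒮, N - 1 < N' := fun N' h' => by linarith [csInf_le ⟨0, h0⟩ h']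
  have hN0 := h0 N ⟨x, z, hN⟩
  have h1 := hs W x z N hN (fun m => by
    by_contra h2
    push Not at h2
    exact lt_irrefl _ (hmin _ ⟨m, z, h2⟩)) e he0
  have h2 : N - 1 < N / 2 + M' * T := hmin _ ⟨x, x, fun w hw => by
    obtain ⟨S, a, b, d⟩ := h1 w hw
    refine (hq _ _ d).trans ?_
    have h3 : (M * (1 + S) + c) ^ 2 ≤ ((M + c) * (1 + S)) ^ 2 :=
      pow_le_pow_left₀ (by positivity) (by nlinarith [mul_nonneg hc0 a]) 2
    have h4 : (1 + S) ^ 2 ≤ 2 * (T + 2 * e * N) := by nlinarith [sq_nonneg (1 - S)]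
    have h5 : (r : ℝ) * ((M + c) * (1 + S)) ^ 2 ≤ M' * (T + 2 * e * N) := by
      rw [mul_pow, hM', ← mul_assoc]
      refine (mul_le_mul_of_nonneg_left h4 (by positivity)).trans (le_of_eq (by ring))
    have h6 := mul_le_mul_of_nonneg_left h3 (Nat.cast_nonneg r : (0 : ℝ) ≤ r)
    nlinarith [mul_le_mul_of_nonneg_right he1 hN0]⟩
  refine ⟨x, fun w hw => ?_⟩
  obtain ⟨S, a, b, d⟩ := h1 w hw
  refine d.trans (mul_le_mul_of_nonneg_left ?_ hM)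
  have h3 : 2 * e * N ≤ 2 * e * (2 * (M' * T) + 2) :=
    mul_le_mul_of_nonneg_left (by linarith) (by positivity)
  nlinarith [sq_nonneg (S - 1)]

/-- every compact subgroup is conjugate into one compact set -/
theorem conj_cpt (hc : Cov F) : ∃ D : Set G, IsCompact D ∧ ∀ W : Subgroup G, IsCompact (W : Set G) →
    ∃ x, ∀ w ∈ W, x⁻¹ * w * x ∈ D := by
  obtain ⟨R, hR⟩ := conj_len h hc
  refine ⟨_, h.cpt_len R, fun W hW => ?_⟩
  obtain ⟨B, -, hB⟩ := h.len_cpt hW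
  exact hR W ⟨B, hB⟩

end Vale.Agent.P092LQ
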