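import Vale.Agent.P092LQ.Vol
import Vale.Agent.P092GP.Top

/-!
P092, project LQ (helper45): flag packages adapted to a linear package; covering by big cells,
maximal volume and the coarse Cartan decomposition in matrix form.
-/

set_option autoImplicit false
set_option linter.all false

open Matrix Filter Topology

namespace Vale.Agent.P092LQ

open Vale.Agent.P092GK Vale.Agent.P092GP Vale.Agent.P092GP.LD Vale.Agent.P183CH

variable {k G : Type} [NontriviallyNormedField k] [Group G] [TopologicalSpace G] {L : LD k G}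
  {r : ℕ} {F : FlD k G r}

variable (L F) in
/-- a flag package adapted to a linear package -/
structure Ad : Prop where
  fl : Fl F
  z : F.Z = L.Z0
  up : F.Up = L.Up
  um : F.Um = L.Um

theorem Ad.cov (A : Ad L F) (H : L.Ok) : Cov F := fun g => by
  obtain ⟨u, a, n, w, b, c, u', d, rfl⟩ := H.bruhat0 g
  obtain ⟨x, hx, y, hy, rfl⟩ := H.split_w' (inv_mem b) le_rfl a
  refine ⟨n, fun z hz => ?_, ?_⟩
  · rw [A.z] at hz ⊢
    simpa only [inv_inv] using c.inv.conj_Z0 hz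
  · have h1 : n⁻¹ * x * n⁻¹⁻¹ ∈ L.Um := c.inv.conj_UD hx fun _ e => e.2
    have h2 : n⁻¹ * y * n⁻¹⁻¹ ∈ L.Up := c.inv.conj_UD hy fun _ e => e.2
    rw [show n⁻¹ * (x * y * n * u') = n⁻¹ * x * n⁻¹⁻¹ * 1 * (n⁻¹ * y * n⁻¹⁻¹ * u') by group]
    exact A.fl.cell_mem (A.um ▸ h1) (one_mem _) (A.up ▸ mul_mem h2 d)

theorem Ad.sup (A : Ad L F) : F.Up ⊔ F.Um = L.Gp := by rw [A.up, A.um]; rfl

theorem n_pos (H : L.Ok) (hr : 0 < L.R.r) : 0 < L.n := by
  obtain ⟨u, -, b⟩ := H.exists_X ⟨0, hr⟩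
  refine Nat.pos_of_ne_zero fun e => b (H.inj (Matrix.ext fun i _ => ?_))
  exact absurd i.2 (by omega)

/-- the coarse Cartan decomposition with the middle factor in the split torus -/
theorem Ad.kak (A : Ad L F) (H : L.LP) :
    ∃ C : Set G, IsCompact C ∧ ∀ g, ∃ x ∈ C, ∃ s ∈ L.S, ∃ y ∈ C, g = x * s * y := by
  have := H.top
  have := H.t2
  have := H.prop
  obtain ⟨C, hC, hg⟩ := A.fl.kak
  obtain ⟨D, hD, -, hz⟩ := H.cpt
  refine ⟨C ∪ Set.image2 (· * ·) D C, hC.union (hD.mul hC), fun g => ?_⟩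
  obtain ⟨x, hx, t, -, y, hy, rfl⟩ := hg g
  obtain ⟨s, hs, c, hc, e⟩ := hz _ (A.z ▸ A.fl.a_mem t)
  exact ⟨x, Or.inl hx, s, hs, c * y, Or.inr ⟨c, hc, y, hy, rfl⟩, by rw [e]; group⟩

/-- the same in matrix form -/
theorem Ad.car (A : Ad L F) (H : L.LP) : ∃ (E : Submodule ℝ (Fin L.n → ℝ)) (C : ℝ),
    Module.finrank ℝ E ≤ L.R.r ∧
    ∀ g, ∃ (A A' B B' : Matrix (Fin L.n) (Fin L.n) k) (a : Fin L.n → k) (x : Fin L.n → ℝ),
      x ∈ E ∧ A * A' = 1 ∧ B * B' = 1 ∧ (∀ i j, ‖A i j‖ ≤ C) ∧ (∀ i j, ‖A' i j‖ ≤ C) ∧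
      (∀ i j, ‖B i j‖ ≤ C) ∧ (∀ i j, ‖B' i j‖ ≤ C) ∧ L.ρ g = A * diagonal a * B ∧
      ∀ i, |Real.log ‖a i‖ - x i| ≤ C := by
  have := H.top
  obtain ⟨C, hC, hg⟩ := A.kak H
  obtain ⟨R, hR, hR'⟩ := (H.bd_cpt (hC.union hC.inv)).norm
  let M : Matrix (Fin L.n) (Fin L.R.r) ℝ := of fun a j => (L.wt a j : ℝ)
  refine ⟨LinearMap.range M.mulVecLin, R, (LinearMap.finrank_range_le _).trans
    (Module.finrank_fin_fun ℝ).le, fun g => ?_⟩
  obtain ⟨x, hx, s, hs, y, hy, rfl⟩ := hg g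
  obtain ⟨t, rfl⟩ := H.ok.mem_S.1 hs
  refine ⟨L.ρ x, L.ρ x⁻¹, L.ρ y, L.ρ y⁻¹, fun a => ((∏ j, t j ^ L.wt a j : kˣ) : k), _,
    ⟨fun j => Real.log ‖(t j : k)‖, rfl⟩, by rw [← map_mul, mul_inv_cancel, map_one],
    by rw [← map_mul, mul_inv_cancel, map_one], hR' _ (Or.inl hx),
    hR' _ (Or.inr (Set.inv_mem_inv.2 hx)), hR' _ (Or.inl hy), hR' _ (Or.inr (Set.inv_mem_inv.2 hy)),
    by rw [map_mul, map_mul, H.ok.rho_σ], fun i => ?_⟩
  have e : Real.log ‖((∏ j, t j ^ L.wt i j : kˣ) : k)‖ = ∑ j, (L.wt i j : ℝ) * Real.log ‖(t j : k)‖ := by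
    rw [Units.coe_prod, norm_prod, Real.log_prod fun j _ => norm_ne_zero_iff.2 (Units.ne_zero _)]
    exact Finset.sum_congr rfl fun j _ => by rw [Units.val_zpow_eq_zpow_val, norm_zpow, Real.log_zpow]
  rw [e, show M.mulVecLin (fun j => Real.log ‖(t j : k)‖) i =
    ∑ j, (L.wt i j : ℝ) * Real.log ‖(t j : k)‖ from rfl, sub_self, abs_zero]
  linarith

/-- the centre is finite -/
theorem fin_center (H : L.LS) : Finite (Subgroup.center G) :=
  (H.cfin.subset fun g hg u _ => (Subgroup.mem_center_iff.1 hg u).symm).to_subtype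

end Vale.Agent.P092LQ
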