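import Vale.Agent.P092LQ.Lin
import Vale.Agent.P092GH.HM
import Vale.Agent.P092TG.Tgt
import Vale.Agent.P092RB.Lp
import Vale.Agent.P092LS.ResT
import Vale.Agent.P092.QC.Final
import Vale.Agent.P092.H35.Rp.Bas
import Vale.Agent.P092.H678.GoodCl
import Vale.Agent.P092.H259.Mx.Red
import Vale.Agent.P092.H793.Nc.Pass

/-!
P092, project LQ (helper45): almost simple linear packages are factors.
-/

set_option autoImplicit false
set_option linter.all false

open Matrix Filter Topology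

namespace Vale.Agent.P092LQ

open Vale.Agent.P092GK Vale.Agent.P092GP Vale.Agent.P092GP.LD Vale.Agent.P183CH
open Vale.Agent.P092

variable {k G : Type} [NontriviallyNormedField k] [Group G] [TopologicalSpace G] {L : LD k G}
  {r : ℕ} {F : FlD k G r}

theorem Ad.tgt (A : Ad L F) (H : L.LP) (hr : 0 < L.R.r) : H515.Tgt G L.R.r :=
  have := H.prop
  let ⟨E, C, a, b⟩ := A.car H
  P092TG.tgt_kak H.loc (n_pos H.ok hr) L.ρ H.cemb H.ok.det E a C b

theorem Ad.hmg (A : Ad L F) (H : L.LP) (ht : L.Gp = ⊤) {s : Fin r → G} {N : ℕ} {τ : ℕ → Fin r}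
    {w : ℕ → G} (hp : Pan F s N τ w) : H15.HMG G := by
  have := H.top
  have := H.t2
  have := H.prop
  refine P092GH.hmg A.fl hp ?_
  have : P092GH.Gp F = ⊤ :=
    top_le_iff.1 (ht ▸ A.sup ▸ sup_le P092GH.up_le_Gp P092GH.um_le_Gp)
  rw [this]
  exact dense_univ

theorem Ad.td [IsUltrametricDist k] (A : Ad L F) (H : L.LP) (ht : L.Gp = ⊤) (hm : H15.HMG G) :
    QC.Td G := by
  have := H.top
  have := H.t2
  have := H.prop
  have := H.lc
  have := H.sc
  obtain ⟨K, a, b, -⟩ := H35.Rp.basis H.cemb (V := Set.univ) univ_mem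
  exact ⟨fun V hV => H35.Rp.basis H.cemb hV, H678.ClC.isCompact_of_hmg hm,
    vol_fl A.fl (A.cov H.ok) (A.sup.trans ht) a b⟩

theorem Ad.erg (A : Ad L F) (H : L.LP) (ht : L.Gp = ⊤) (hm : H15.HMG G) :
    PreconnectedSpace G ∨ QC.Td G := by
  by_cases hu : IsUltrametricDist k
  · exact Or.inr (A.td H ht hm)
  · have := H.top
    have := (P092RB.arch H.loc hu).1
    exact Or.inl (P092RB.conn H.ok H.emb ht)

/-- **The factors.** -/
theorem Ad.qf (A : Ad L F) (H : L.LS) (ht : L.Gp = ⊤) (hr : 0 < L.R.r) (hm : H15.HMG G)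
    (hc : H264.Chn G L.R.r) (hf : PA.FacS (H259.PQ G)) : QC.QF G L.R.r where
  top := H.lp.top
  lc := H.lp.lc
  sc := H.lp.sc
  t2 := H.lp.t2
  fin := fin_center H
  fac := hf
  hmg := hm
  chn := hc
  tgt := A.tgt H.lp hr
  pos := hr
  erg := A.erg H.lp ht hm

theorem open_Gp (H : L.LS) (hf : L.Gp.FiniteIndex) : IsOpen (L.Gp : Set G) :=
  have := H.lp.top
  L.Gp.isOpen_of_isClosed_of_finiteIndex H.closed

/-- overgroups of finite index -/
theorem ov_of (H : L.LS) (hf : L.Gp.FiniteIndex)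
    (hq : ∀ L' : LD k L.Gp, L'.LS → L'.Gp = ⊤ → L'.R = L.R → QC.QF L.Gp L'.R.r) :
    VR.Ov L.Gp.subtype L.R.r := by
  obtain ⟨L', a, b, c⟩ := P092LS.ls_sub H le_rfl H.closed
  exact VR.ov_subtype H.lp.top H.lp.ok.normal_Gp hf (open_Gp H hf)
    (b ▸ hq L' a (c.trans (Subgroup.subgroupOf_self _)) b)

theorem bpl_of (H : L.LS) (hf : L.Gp.FiniteIndex)
    (hq : ∀ L' : LD k L.Gp, L'.LS → L'.Gp = ⊤ → L'.R = L.R →
      QC.QF L.Gp L'.R.r ∧ H213.Nd.ND L.Gp) : H259.Mx.Bpl G := by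
  have := H.lp.top
  obtain ⟨L', a, b, c⟩ := P092LS.ls_sub H le_rfl H.closed
  exact ⟨⟨_, _, _, _, _, ov_of H hf fun L' a b c => (hq L' a b c).1⟩,
    H35.Mx.minC_of_linear (F := k) L.ρ H.lp.ok.inj, H793.Nc.nd_of_fi _ hf (open_Gp H hf)
      (hq L' a (c.trans (Subgroup.subgroupOf_self _)) b).2⟩

end Vale.Agent.P092LQ
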