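import Vale.Agent.P092LQ.Ctr
import Mathlib.MeasureTheory.Group.ModularCharacter
import Mathlib.MeasureTheory.Group.Measure
import Mathlib.Topology.Algebra.OpenSubgroup

/-!
P092, project LQ (helper45): a compact open subgroup of maximal volume.
-/

set_option autoImplicit false
set_option linter.all false

open Filter Topology MeasureTheory MeasureTheory.Measure
open scoped ENNReal NNReal

namespace Vale.Agent.P092LQ

variable {G : Type} [Group G] [TopologicalSpace G] [IsTopologicalGroup G]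

theorem fin_img {K : Subgroup G} (hK : IsOpen (K : Set G)) {D : Set G} (hD : IsCompact D) :
    ((QuotientGroup.mk : G → G ⧸ K) '' D).Finite := by
  haveI : DiscreteTopology (G ⧸ K) := QuotientGroup.discreteTopology hK
  exact (hD.image QuotientGroup.continuous_mk).finite_of_discrete

omit [TopologicalSpace G] [IsTopologicalGroup G] in
theorem idx_le {K W : Subgroup G} {D : Set G} (hD : ((QuotientGroup.mk : G → G ⧸ K) '' D).Finite)
    (hW : (W : Set G) ⊆ D) :
    K.relIndex W ≠ 0 ∧ K.relIndex W ≤ ((QuotientGroup.mk : G → G ⧸ K) '' D).ncard := by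
  let f : W ⧸ K.subgroupOf W → ((QuotientGroup.mk : G → G ⧸ K) '' D) := fun q =>
    ⟨QuotientGroup.mk (q.out : G), _, hW q.out.2, rfl⟩
  have hf : Function.Injective f := fun p q e => by
    have h1 : (p.out : G)⁻¹ * (q.out : G) ∈ K := QuotientGroup.eq.1 (congrArg Subtype.val e)
    rw [← QuotientGroup.out_eq' p, ← QuotientGroup.out_eq' q]
    exact QuotientGroup.eq.2 h1
  haveI := hD.to_subtype
  haveI : Finite (W ⧸ K.subgroupOf W) := Finite.of_injective f hf
  exact ⟨Nat.card_pos.ne', Nat.card_le_card_of_injective f hf⟩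

theorem idx_ne {K W : Subgroup G} (hK : IsOpen (K : Set G)) (hW : IsCompact (W : Set G)) :
    K.relIndex W ≠ 0 := (idx_le (fin_img hK hW) subset_rfl).1

section meas

variable [MeasurableSpace G] [BorelSpace G] {μ : Measure G}

theorem haar_idx [μ.IsMulLeftInvariant] {U O : Subgroup G} (hU : IsOpen (U : Set G))
    (hO : IsOpen (O : Set G)) (hc : IsCompact (O : Set G)) (hUO : U ≤ O) :
    μ (O : Set G) = (U.relIndex O : ℝ≥0∞) * μ (U : Set G) := by
  have hmo : MeasurableSet (O : Set G) := hO.measurableSet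
  have hme : MeasurableEmbedding (O.subtype : O → G) := MeasurableEmbedding.subtype_coe hmo
  haveI : (μ.comap (O.subtype : O → G)).IsMulLeftInvariant := IsMulLeftInvariant.comap μ hme
  haveI : (U.subgroupOf O).FiniteIndex := ⟨idx_ne hU hc⟩
  have h1 := (U.subgroupOf O).index_mul_measure (hU.preimage continuous_subtype_val).measurableSet
    (μ.comap (O.subtype : O → G))
  rw [hme.comap_apply, hme.comap_apply] at h1
  have h2 : (O.subtype : O → G) '' Set.univ = (O : Set G) := by
    rw [Set.image_univ]; exact Subtype.range_coe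
  have h3 : (O.subtype : O → G) '' ((U.subgroupOf O : Subgroup O) : Set O) = (U : Set G) := by
    ext x
    constructor
    · rintro ⟨y, hy, rfl⟩; exact hy
    · intro hx; exact ⟨⟨x, hUO hx⟩, hx, rfl⟩
  rw [h2, h3] at h1
  exact h1.symm

variable [LocallyCompactSpace G] [SecondCountableTopology G] [μ.IsHaarMeasure]

/-- a group with a compact open subgroup and no proper open normal subgroup is unimodular -/
theorem unimod {K : Subgroup G} (hK : IsOpen (K : Set G)) (hc : IsCompact (K : Set G))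
    (hno : ∀ N : Subgroup G, N.Normal → IsOpen (N : Set G) → N = ⊤) (g : G) {A : Set G}
    (hA : MeasurableSet A) : μ ((· * g) ⁻¹' A) = μ A := by
  have h1 : ∀ g : G, ∀ A : Set G, MeasurableSet A →
      μ ((· * g) ⁻¹' A) = (modularCharacter g : ℝ≥0) * μ A := fun g A hA => by
    rw [← Measure.map_apply (measurable_mul_const g) hA, map_right_mul_eq_modularCharacterFun_smul]
    rfl
  have h2 : K ≤ (modularCharacter (G := G)).ker := fun g hg => by
    have h3 := h1 g K hK.measurableSet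
    rw [show (· * g) ⁻¹' (K : Set G) = K from Set.ext fun x => K.mul_mem_cancel_right hg] at h3
    have h4 : ((modularCharacter g : ℝ≥0) : ℝ≥0∞) = 1 :=
      (ENNReal.mul_left_inj (hK.measure_ne_zero μ ⟨1, K.one_mem⟩) hc.measure_lt_top.ne).1
        (h3.symm.trans (one_mul _).symm)
    exact_mod_cast h4
  have h3 : g ∈ (modularCharacter (G := G)).ker := by
    rw [hno _ inferInstance (Subgroup.isOpen_mono h2 hK)]; trivial
  rw [h1 g A hA, show modularCharacter g = 1 from h3, ENNReal.coe_one, one_mul]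

end meas

/-- **The maximal volume is attained.** -/
theorem vol_of [LocallyCompactSpace G] [SecondCountableTopology G] {K₀ : Subgroup G}
    (hK : IsOpen (K₀ : Set G)) (hc : IsCompact (K₀ : Set G))
    (hno : ∀ N : Subgroup G, N.Normal → IsOpen (N : Set G) → N = ⊤) {D : Set G} (hD : IsCompact D)
    (hW : ∀ W : Subgroup G, IsCompact (W : Set G) → ∃ x, ∀ w ∈ W, x⁻¹ * w * x ∈ D) :
    ∃ K : Subgroup G, IsOpen (K : Set G) ∧ IsCompact (K : Set G) ∧
      ∀ U W : Subgroup G, IsOpen (U : Set G) → IsOpen (W : Set G) → IsCompact (W : Set G) →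
        U ≤ W → U ≤ K → U.relIndex W ≤ U.relIndex K := by
  borelize G
  let μ : Measure G := haar
  have p0 : ∀ {W : Subgroup G}, IsOpen (W : Set G) → μ W ≠ 0 := fun {W} h =>
    h.measure_ne_zero μ ⟨1, W.one_mem⟩
  set N := ((QuotientGroup.mk : G → G ⧸ K₀) '' D).ncard with hN
  have h1 : ∀ W : Subgroup G, IsOpen (W : Set G) → IsCompact (W : Set G) →
      ∃ a b : ℕ, a ≤ N ∧ b ≠ 0 ∧ (b : ℝ≥0∞) * μ W = a * μ K₀ := fun W ho hw => by
    obtain ⟨x, hx⟩ := hW W hw
    let W' : Subgroup G := W.comap (MulAut.conj x).toMonoidHom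
    have e1 : (W' : Set G) = (· * x⁻¹) ⁻¹' ((x * ·) ⁻¹' (W : Set G)) := Set.ext fun g => by
      show x * g * x⁻¹ ∈ W ↔ x * (g * x⁻¹) ∈ W
      rw [mul_assoc]
    have o1 : IsOpen (W' : Set G) := by rw [e1]; exact (ho.preimage (by fun_prop)).preimage (by fun_prop)
    have s1 : (W' : Set G) ⊆ D := fun g hg => by
      have := hx _ (show x * g * x⁻¹ ∈ W from hg)
      rwa [show x⁻¹ * (x * g * x⁻¹) * x = g by group] at this
    have c1 : IsCompact (W' : Set G) := hD.of_isClosed_subset (W'.isClosed_of_isOpen o1) s1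
    have m1 : μ W' = μ W := by
      rw [e1, unimod hK hc hno _ ((measurable_const_mul x) ho.measurableSet), measure_preimage_mul]
    have o2 : IsOpen ((K₀ ⊓ W' : Subgroup G) : Set G) := hK.inter o1
    refine ⟨(K₀ ⊓ W').relIndex W', (K₀ ⊓ W').relIndex K₀, ?_, idx_ne o2 hc, ?_⟩
    · rw [Subgroup.inf_relIndex_right]; exact (idx_le (fin_img hK hD) s1).2
    · rw [← m1, haar_idx o2 o1 c1 inf_le_right, haar_idx (μ := μ) o2 hK hc inf_le_left]
      ring
  let T : Set ℝ≥0∞ := {v | μ K₀ ≤ v ∧ ∃ W : Subgroup G, IsOpen (W : Set G) ∧ IsCompact (W : Set G) ∧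
    μ W = v}
  have hT : T.Finite := by
    refine (((Set.finite_Iic N).prod (Set.finite_Iic N)).image
      fun q : ℕ × ℕ => (q.2 : ℝ≥0∞)⁻¹ * (q.1 * μ K₀)).subset ?_
    rintro _ ⟨h2, W, ho, hw, rfl⟩
    obtain ⟨a, b, ha, hb, e⟩ := h1 W ho hw
    have h3 : (b : ℝ≥0∞) ≤ a := (ENNReal.mul_le_mul_iff_left (p0 hK) hc.measure_lt_top.ne).1
      ((mul_le_mul_right h2 _).trans e.le)
    refine ⟨(a, b), ⟨ha, le_trans (by exact_mod_cast h3) ha⟩, ?_⟩
    show (b : ℝ≥0∞)⁻¹ * (a * μ K₀) = μ W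
    rw [← e, ← mul_assoc, ENNReal.inv_mul_cancel (by exact_mod_cast hb) (ENNReal.natCast_ne_top b),
      one_mul]
  obtain ⟨_, ⟨h2, K, ho, hk, rfl⟩, hm⟩ := Set.exists_max_image T id hT ⟨_, le_rfl, K₀, hK, hc, rfl⟩
  refine ⟨K, ho, hk, fun U W hU hWo hWc a b => ?_⟩
  have h3 : μ W ≤ μ K := (le_total (μ W) (μ K₀)).elim (fun h => h.trans h2) fun h =>
    hm _ ⟨h, W, hWo, hWc, rfl⟩
  rw [haar_idx hU hWo hWc a, haar_idx (μ := μ) hU ho hk b] at h3
  have h4 := (ENNReal.mul_le_mul_iff_left (p0 hU)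
    (hk.of_isClosed_subset (U.isClosed_of_isOpen hU) b).measure_lt_top.ne).1 h3
  exact_mod_cast h4

open Vale.Agent.P092GK in
/-- no proper open normal subgroup -/
theorem no_open {k : Type} [NontriviallyNormedField k] {r : ℕ} {F : FlD k G r} [T2Space G]
    (h : Fl F) (ht : F.Up ⊔ F.Um = ⊤) (N : Subgroup G) (hn : N.Normal) (ho : IsOpen (N : Set G)) :
    N = ⊤ := by
  refine top_le_iff.1 (ht ▸ sup_le (fun u hu => ?_) fun u hu => ?_)
  · obtain ⟨T, -, hT⟩ := h.up_contr (isCompact_singleton (x := u)) (ho.mem_nhds N.one_mem)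
    obtain ⟨z, hz, hl⟩ := h.exists_big T
    have := hn.conj_mem _ (hT z hz hl u rfl hu) z
    rwa [show z * (z⁻¹ * u * z) * z⁻¹ = u by group] at this
  · obtain ⟨T, -, hT⟩ := h.um_contr (isCompact_singleton (x := u)) (ho.mem_nhds N.one_mem)
    obtain ⟨z, hz, hl⟩ := h.exists_big T
    have := hn.conj_mem _ (hT z hz hl u rfl hu) z⁻¹
    rwa [show z⁻¹ * (z * u * z⁻¹) * z⁻¹⁻¹ = u by group] at this

open Vale.Agent.P092GK in
/-- the field `vol` of `Td` for a flag package -/
theorem vol_fl {k : Type} [NontriviallyNormedField k] [ProperSpace k] {r : ℕ} {F : FlD k G r}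
    [T2Space G] [LocallyCompactSpace G] [SecondCountableTopology G] (h : Fl F) (hc : Cov F)
    (ht : F.Up ⊔ F.Um = ⊤) {K₀ : Subgroup G} (hK : IsOpen (K₀ : Set G))
    (hK' : IsCompact (K₀ : Set G)) :
    ∃ K : Subgroup G, IsOpen (K : Set G) ∧ IsCompact (K : Set G) ∧
      ∀ U W : Subgroup G, IsOpen (U : Set G) → IsOpen (W : Set G) → IsCompact (W : Set G) →
        U ≤ W → U ≤ K → U.relIndex W ≤ U.relIndex K :=
  let ⟨_, hD, hW⟩ := conj_cpt h hc
  vol_of hK hK' (no_open h ht) hD hW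

end Vale.Agent.P092LQ
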